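import Vale.Agent.P248.Merge

/-!
Mahler's symmetric inequality in every dimension for bodies whose coordinate sections are
equipartitioned by the orthants, and for bodies invariant under sign changes of pairs.
-/

namespace Vale.Agent.Results.P248.OrthantEquipartition

open MeasureTheory Set Vale.Agent.P248

theorem result (n : ℕ) (K : Set (Fin n → ℝ)) (hconv : Convex ℝ K) (hcompact : IsCompact K)
    (hsymm : ∀ x ∈ K, -x ∈ K) (hint : (0 : Fin n → ℝ) ∈ interior K) :
    ((∀ k < n, ∀ e : Fin k → Fin n, Function.Injective e → ∀ s t : Fin k → ℝ,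
        IsSign s → IsSign t → volume (piece (sect K e) s) = volume (piece (sect K e) t)) →
      ∀ V : ℝ, (∀ s, IsSign s → volume.real (piece K s) ≤ V) →
        (4 : ℝ) ^ n / n.factorial ≤ 2 ^ n * V * volume.real (polarSet K)) ∧
    ((∀ k ≤ n, ∀ e : Fin k → Fin n, Function.Injective e → ∀ s t : Fin k → ℝ,
        IsSign s → IsSign t → volume (piece (sect K e) s) = volume (piece (sect K e) t)) →
      (4 : ℝ) ^ n / n.factorial ≤ volume.real K * volume.real (polarSet K)) ∧
    ((∀ i j, i ≠ j → ∀ x ∈ K, flipSet {i, j} x ∈ K) →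
      ((n : ℝ) - 1) / n * ((4 : ℝ) ^ n / n.factorial) ≤
        volume.real K * volume.real (polarSet K) ∧
      ((∃ i₀, volume (piece K 1) = volume (piece K fun i => if i = i₀ then -1 else 1)) →
        (4 : ℝ) ^ n / n.factorial ≤ volume.real K * volume.real (polarSet K))) := by
  have hK : SymBody K := ⟨hconv, hcompact, hsymm, hint⟩
  have hall : ∀ V : ℝ, (∀ s, IsSign s → volume.real (piece K s) ≤ V) → ProperEqui K →
      (4 : ℝ) ^ n / n.factorial ≤ 2 ^ n * V * volume.real (polarSet K) :=
    fun V hV hE => equipartition_bound hK hE hV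
  have hequal : ∀ t : Fin n → ℝ, (∀ s, IsSign s → volume (piece K s) = volume (piece K t)) →
      ProperEqui K → (4 : ℝ) ^ n / n.factorial ≤ volume.real K * volume.real (polarSet K) := by
    intro t ht hE
    refine (hall _ (fun s hs => le_of_eq (by rw [measureReal_def, ht s hs])) hE).trans_eq ?_
    congr 1
    rw [← sum_pieces hcompact, Finset.sum_congr rfl
      (g := fun _ => (volume (piece K t)).toReal) fun b _ => by
        rw [measureReal_def, ht _ (isSign_sg b)]]
    simp
  refine ⟨fun hE V hV => hall V hV hE, fun hE => ?_, fun hpair => ?_⟩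
  · refine hequal 1 (fun s hs => ?_) fun k hk => hE k hk.le
    have h := hE n le_rfl id Function.injective_id s 1 hs fun i => Or.inl rfl
    rwa [sect_id] at h
  have hE := pair_properEqui hpair
  refine ⟨pair_bound hK hpair, fun ⟨i₀, h0⟩ => ?_⟩
  refine hequal 1 (fun s hs => ?_) hE
  rcases pair_two_pieces hpair i₀ hs with ⟨h, -⟩ | ⟨h, -⟩ <;> rw [h]
  exact h0.symm

end Vale.Agent.Results.P248.OrthantEquipartition
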