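import Vale.Agent.P248.Planar

/-!
Mahler's symmetric inequality passes to unconditional amalgams, and hence holds for amalgams
of symmetric segments and symmetric planar bodies in every dimension.
-/

namespace Vale.Agent.Results.P248.UnconditionalAmalgams

open MeasureTheory Set Vale.Agent.P248

variable {ι : Type} {d : ι → ℕ}

/-- The amalgam of the norms `p i` along the pattern `C`. -/
def amalgam (p : ∀ i, Seminorm ℝ (Fin (d i) → ℝ)) (C : Set (ι → ℝ)) :
    Set (∀ i, Fin (d i) → ℝ) :=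
  {x | (fun i => p i (x i)) ∈ C}

/-- The polar set for the standard inner product of the blocks taken together. -/
def blockPolar [Fintype ι] (K : Set (∀ i, Fin (d i) → ℝ)) : Set (∀ i, Fin (d i) → ℝ) :=
  {y | ∀ x ∈ K, ∑ i, ∑ j, x i j * y i j ≤ 1}

lemma amalgam_body [Fintype ι] (p : ∀ i, Seminorm ℝ (Fin (d i) → ℝ))
    (hp : ∀ i x, p i x = 0 → x = 0) {C : Set (ι → ℝ)} (hC : Pattern C) :
    Convex ℝ (amalgam p C) ∧ IsCompact (amalgam p C) ∧ (∀ x ∈ amalgam p C, -x ∈ amalgam p C) ∧
      (0 : ∀ i, Fin (d i) → ℝ) ∈ interior (amalgam p C) := by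
  have hg := fun i => gauge_of_seminorm (p i) (hp i)
  have hcont : ∀ i, Continuous fun x : ∀ j, Fin (d j) → ℝ => p i (x i) := fun i =>
    (hg i).cont.comp (continuous_apply i)
  refine ⟨fun x hx y hy u v hu hv huv => ?_, ?_, fun x hx => by simpa [amalgam] using hx, ?_⟩
  · refine hC.down _ (hC.conv hx hy hu hv huv) _ (fun i => apply_nonneg (p i) _) fun i => ?_
    refine (map_add_le_add (p i) _ _).trans (le_of_eq ?_)
    simp [map_smul_eq_mul, Real.norm_of_nonneg hu, Real.norm_of_nonneg hv]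
  · obtain ⟨b, hb⟩ := isBounded_iff_forall_norm_le.1 hC.compact.isBounded
    refine (isCompact_univ_pi fun i => (hg i).isCompact_le b).of_isClosed_subset
      (hC.compact.isClosed.preimage (continuous_pi hcont)) fun x hx i _ => ?_
    exact (le_abs_self _).trans ((norm_le_pi_norm _ i).trans (hb _ hx))
  · obtain ⟨t, ht, htpos⟩ := hC.pos
    refine interior_maximal (s := amalgam p C) (t := {x | ∀ i, p i (x i) < t i})
      (fun x hx => hC.down t ht _ (fun i => apply_nonneg (p i) _) fun i => (hx i).le) ?_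
      fun i => by simpa using htpos i
    rw [ofPred_forall]
    exact isOpen_iInter_of_finite fun i => isOpen_lt (hcont i) continuous_const

theorem result (ι : Type) [Fintype ι] (d : ι → ℕ) (p : ∀ i, Seminorm ℝ (Fin (d i) → ℝ))
    (hp : ∀ i x, p i x = 0 → x = 0) (C : Set (ι → ℝ)) (hcompact : IsCompact C)
    (hconv : Convex ℝ C) (hnonneg : ∀ t ∈ C, ∀ i, 0 ≤ t i)
    (hdown : ∀ t ∈ C, ∀ s : ι → ℝ, (∀ i, 0 ≤ s i) → (∀ i, s i ≤ t i) → s ∈ C)
    (hpos : ∃ t ∈ C, ∀ i, 0 < t i) :
    (Convex ℝ (amalgam p C) ∧ IsCompact (amalgam p C) ∧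
      (∀ x ∈ amalgam p C, -x ∈ amalgam p C) ∧
      (0 : ∀ i, Fin (d i) → ℝ) ∈ interior (amalgam p C)) ∧
    ∏ i, ((d i).factorial * (volume.real {x | p i x ≤ 1} *
        volume.real {y : Fin (d i) → ℝ | ∀ x ∈ {x | p i x ≤ 1}, ∑ j, x j * y j ≤ 1})) ≤
      ((∑ i, d i).factorial : ℝ) *
        (volume.real (amalgam p C) * volume.real (blockPolar (amalgam p C))) ∧
    ((∀ i, d i ≤ 2) → (4 : ℝ) ^ (∑ i, d i) / (∑ i, d i).factorial ≤
      volume.real (amalgam p C) * volume.real (blockPolar (amalgam p C))) := by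
  have hC : Pattern C := ⟨hcompact, hconv, hnonneg, hdown, hpos⟩
  have h := amalgam_product (f := fun i => (p i : (Fin (d i) → ℝ) → ℝ))
    (fun i => gauge_of_seminorm (p i) (hp i)) hC
  refine ⟨amalgam_body p hp hC, h, fun hd => ?_⟩
  rw [div_le_iff₀' (by positivity), ← Finset.prod_pow_eq_pow_sum]
  exact (Finset.prod_le_prod (fun i _ => by positivity)
    fun i _ => mahler_small (hd i) (p i) (hp i)).trans h

end Vale.Agent.Results.P248.UnconditionalAmalgams
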